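import Vale.Agent.P028.W1.Main

/-!
Weak inhomogeneous Duffin-Schaeffer for every shift and every `ψ`, up to an arbitrarily small power
of `log log q`.
-/

noncomputable section

namespace Vale.Agent.Results.P028.WeakDSEpsLoss

open MeasureTheory

/-- For every `ε > 0`, every real `γ` and every `ψ ≥ 0`, almost every real `x` has
`|q x - a - γ| < ψ q` for infinitely many `q ≥ 1` as soon as `∑ φ(q) ψ(q) / q · w(q)` diverges,
where `w(q) = 1` if `ψ q ≤ exp (-(log log q) ^ 2)` and `w(q) = log (2 + 1 / ψ q) ^ (-ε)` otherwise;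
in particular as soon as `∑ φ(q) ψ(q) / (q (max 1 (log log q)) ^ ε)` diverges. -/
theorem result :
    ∀ (ε : ℝ), 0 < ε → ∀ (γ : ℝ) (ψ : ℕ → ℝ), (∀ q, 0 ≤ ψ q) →
      (¬ Summable (fun q : ℕ => (Nat.totient q : ℝ) / q * ψ q *
          (if ψ q ≤ Real.exp (-(Real.log (Real.log q) ^ 2)) then 1
            else (Real.log (2 + 1 / ψ q) ^ ε)⁻¹)) ∨
        ¬ Summable (fun q : ℕ => (Nat.totient q : ℝ) / q * ψ q /
          max 1 (Real.log (Real.log q)) ^ ε)) →
      volume {x : ℝ | {q : ℕ | 0 < q ∧ ∃ a : ℤ, |(q : ℝ) * x - a - γ| < ψ q}.Infinite}ᶜ = 0 := by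
  intro ε hε γ ψ hψ h
  rcases h with h | h
  · exact Vale.Agent.P028.W1.weakDS_lossW ε hε γ ψ hψ h
  · exact Vale.Agent.P028.W1.weakDS_loglog ε hε γ ψ hψ h

end Vale.Agent.Results.P028.WeakDSEpsLoss
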